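import Mathlib

namespace Vale.Agent.P287.H46

open MvPolynomial

/-- translation automorphism -/
noncomputable def transl {n : ℕ} (x : Fin n → ℂ) :
    MvPolynomial (Fin n) ℂ ≃ₐ[ℂ] MvPolynomial (Fin n) ℂ :=
  AlgEquiv.ofAlgHom (aeval fun i => X i + C (x i)) (aeval fun i => X i - C (x i))
    (by ext i; simp [MvPolynomial.algebraMap_eq]) (by ext i; simp [MvPolynomial.algebraMap_eq])

theorem eval_transl {n : ℕ} (x : Fin n → ℂ) (p : MvPolynomial (Fin n) ℂ) :
    eval 0 (transl x p) = eval x p := by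
  have h1 : transl x p = aeval (fun i => X i + C (x i)) p := rfl
  rw [h1, map_aeval]
  have h2 : (eval (0 : Fin n → ℂ)).comp (algebraMap ℂ (MvPolynomial (Fin n) ℂ)) = RingHom.id ℂ := by
    ext c
    simp
  rw [h2]
  simp

theorem mem_van {n : ℕ} (x : Fin n → ℂ) (p : MvPolynomial (Fin n) ℂ) :
    p ∈ vanishingIdeal ℂ ({x} : Set (Fin n → ℂ)) ↔ eval x p = 0 := by
  rw [mem_vanishingIdeal_singleton_iff]
  rfl

theorem height_origin (n : ℕ) :
    (vanishingIdeal ℂ ({0} : Set (Fin n → ℂ))).height = n := by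
  have hd : ringKrullDim (MvPolynomial (Fin n) ℂ) = n := by
    rw [MvPolynomial.ringKrullDim_of_isNoetherianRing, ringKrullDim_eq_zero_of_field]
    simp
  have : FiniteRingKrullDim (MvPolynomial (Fin n) ℂ) := by
    rw [finiteRingKrullDim_iff_ne_bot_and_top, hd]
    exact ⟨WithBot.coe_ne_bot, by
      intro h
      exact (WithBot.coe_injective.ne (ENat.natCast_ne_top n)) h⟩
  obtain ⟨M, hM, hh⟩ := Ideal.exists_isMaximal_height (R := MvPolynomial (Fin n) ℂ)
  obtain ⟨x, hx⟩ := isMaximal_iff_eq_vanishingIdeal_singleton.mp hM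
  have h1 : Ideal.comap (transl x).toRingEquiv (vanishingIdeal ℂ ({0} : Set (Fin n → ℂ))) = M := by
    rw [hx]
    ext p
    rw [Ideal.mem_comap, mem_van, mem_van]
    exact Eq.congr_left (eval_transl x p)
  rw [← RingEquiv.height_comap (transl x).toRingEquiv, h1]
  rw [hd] at hh
  exact_mod_cast hh

/-- LEAF A -/
theorem exists_common_zero {n k : ℕ} (hk : k < n) (P : Fin k → MvPolynomial (Fin n) ℂ)
    (h0 : ∀ i, eval 0 (P i) = 0) : ∃ v : Fin n → ℂ, v ≠ 0 ∧ ∀ i, eval v (P i) = 0 := by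
  by_contra hcon
  push Not at hcon
  set I : Ideal (MvPolynomial (Fin n) ℂ) := Ideal.span (Set.range P) with hI
  have hz : zeroLocus ℂ I = {0} := by
    rw [hI, zeroLocus_span]
    ext v
    simp only [Set.mem_range, forall_exists_index, forall_apply_eq_imp_iff, Set.mem_ofPred_eq,
      Set.mem_singleton_iff]
    constructor
    · intro h
      by_contra hv
      obtain ⟨i, hi⟩ := hcon v hv
      exact hi (h i)
    · rintro rfl i
      exact h0 i
  have hr : I.radical = vanishingIdeal ℂ ({0} : Set (Fin n → ℂ)) := by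
    rw [← hz, vanishingIdeal_zeroLocus_eq_radical]
  have hmax : (vanishingIdeal ℂ ({0} : Set (Fin n → ℂ))).IsMaximal :=
    isMaximal_iff_eq_vanishingIdeal_singleton.mpr ⟨0, rfl⟩
  have hmin : vanishingIdeal ℂ ({0} : Set (Fin n → ℂ)) ∈ I.minimalPrimes := by
    refine ⟨⟨hmax.isPrime, ?_⟩, ?_⟩
    · rw [← hr]
      exact Ideal.le_radical
    · rintro J ⟨hJ, hIJ⟩ -
      rw [← hr]
      exact (Ideal.IsPrime.radical_le_iff hJ).mpr hIJ
  have h1 := Ideal.height_le_card_of_mem_minimalPrimes_span (Set.finite_range P) hmin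
  rw [height_origin] at h1
  have h2 : (Set.range P).ncard ≤ k := by
    have h3 := Set.ncard_image_le (f := P) (s := Set.univ) Set.finite_univ
    rw [Set.image_univ, Set.ncard_univ, Nat.card_fin] at h3
    exact h3
  have h3 : n ≤ (Set.range P).ncard := by exact_mod_cast h1
  omega

end Vale.Agent.P287.H46
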