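import Vale.Agent.P287.H46.Explicit
import Vale.Agent.P287.H46.CommonZero

namespace Vale.Agent.P287.H46

open MvPolynomial

def ex : Fin 15 → ℕ × ℕ × ℕ :=
  ![(4, 0, 0), (3, 1, 0), (3, 0, 1), (2, 2, 0), (2, 1, 1), (2, 0, 2), (1, 3, 0), (1, 2, 1),
    (1, 1, 2), (1, 0, 3), (0, 4, 0), (0, 3, 1), (0, 2, 2), (0, 1, 3), (0, 0, 4)]

theorem monomial_case (c : ℂ) (p q r : ℕ) (h : p + q + r = 4) :
    ∃ a : Fin 15 → ℂ, (C c * (X 0 ^ p * X 1 ^ q * X 2 ^ r) : MvPolynomial (Fin 3) ℂ)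
      = Q (C ∘ a) (X 0) (X 1) (X 2) := by
  refine ⟨fun i => if ex i = (p, q, r) then c else 0, ?_⟩
  have hp : p ≤ 4 := by omega
  have hq : q ≤ 4 := by omega
  have hr : r = 4 - p - q := by omega
  subst hr
  interval_cases p <;> interval_cases q <;> first | omega | (simp [Q, ex, mul_assoc])

theorem exists_coeffs (B : MvPolynomial (Fin 3) ℂ) (hB : B.IsHomogeneous 4) :
    ∃ a : Fin 15 → ℂ, B = Q (C ∘ a) (X 0) (X 1) (X 2) := by
  rw [B.as_sum]
  apply Finset.sum_induction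
    (p := fun B : MvPolynomial (Fin 3) ℂ => ∃ a : Fin 15 → ℂ, B = Q (C ∘ a) (X 0) (X 1) (X 2))
  · rintro P P' ⟨a, rfl⟩ ⟨b, rfl⟩
    refine ⟨a + b, ?_⟩
    simp only [Q, Function.comp, Pi.add_apply, map_add]
    ring
  · refine ⟨0, ?_⟩
    simp [Q]
  · intro d hd
    have h1 := hB (mem_support_iff.mp hd)
    have h2 : d 0 + d 1 + d 2 = 4 := by
      rw [← h1, Finsupp.weight_apply, Finsupp.sum_fintype _ _ (by simp)]
      simp [Fin.sum_univ_three]
    obtain ⟨a, ha⟩ := monomial_case (coeff d B) (d 0) (d 1) (d 2) h2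
    refine ⟨a, ?_⟩
    rw [← ha, monomial_eq, Finsupp.prod_fintype _ _ (by simp), Fin.prod_univ_three]

theorem eval_Q (a : Fin 15 → ℂ) (v : Fin 3 → ℂ) :
    eval v (Q (C ∘ a) (X 0) (X 1) (X 2)) = Q a (v 0) (v 1) (v 2) := by
  simp [Q]

theorem pderiv0 (a : Fin 15 → ℂ) (v : Fin 3 → ℂ) :
    eval v (pderiv 0 (Q (C ∘ a) (X 0) (X 1) (X 2))) = gx a (v 0) (v 1) (v 2) := by
  simp [Q, gx, pderiv_X]
  ring

theorem pderiv1 (a : Fin 15 → ℂ) (v : Fin 3 → ℂ) :
    eval v (pderiv 1 (Q (C ∘ a) (X 0) (X 1) (X 2))) = gy a (v 0) (v 1) (v 2) := by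
  simp [Q, gy, pderiv_X]
  ring

theorem pderiv2 (a : Fin 15 → ℂ) (v : Fin 3 → ℂ) :
    eval v (pderiv 2 (Q (C ∘ a) (X 0) (X 1) (X 2))) = gz a (v 0) (v 1) (v 2) := by
  simp [Q, gz, pderiv_X]
  ring

theorem sq_of_disc (c2 c3 c4 : ℂ) (h : c3 ^ 2 = 4 * c2 * c4) :
    ∃ α β : ℂ, c2 = α ^ 2 ∧ c3 = 2 * α * β ∧ c4 = β ^ 2 := by
  by_cases h2 : c2 = 0
  · obtain ⟨β, hβ⟩ := IsAlgClosed.exists_pow_nat_eq c4 (n := 2) (by norm_num)
    refine ⟨0, β, by simp [h2], ?_, hβ.symm⟩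
    rw [h2, mul_zero, zero_mul] at h
    simpa using h
  · obtain ⟨α, hα⟩ := IsAlgClosed.exists_pow_nat_eq c2 (n := 2) (by norm_num)
    have hα0 : α ≠ 0 := by
      rintro rfl
      exact h2 (by simpa using hα.symm)
    refine ⟨α, c3 / (2 * α), hα.symm, by field_simp, ?_⟩
    rw [div_pow, mul_pow, hα, h]
    field_simp
    ring

theorem c1_of_eq (a b : Fin 15 → ℂ) (k : ℂ) (x y z u v w x' y' z' u' v' w' : ℂ)
    (h : ∀ t : ℂ, Q b (1 * x + t * u) (1 * y + t * v) (1 * z + t * w)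
      = k * Q a (1 * x' + t * u') (1 * y' + t * v') (1 * z' + t * w')) :
    c1 b x y z u v w = k * c1 a x' y' z' u' v' w' := by
  have h1 := h 1
  have h2 := h (-1)
  have h3 := h 2
  have h4 := h (-2)
  rw [expand, expand] at h1 h2 h3 h4
  linear_combination (1 / 12 : ℂ) * (8 * (h1 - h2) - (h3 - h4))

theorem exists_bitangent_of (hA : ∀ P : Fin 2 → MvPolynomial (Fin 3) ℂ,
      (∀ i, eval 0 (P i) = 0) → ∃ v : Fin 3 → ℂ, v ≠ 0 ∧ ∀ i, eval v (P i) = 0)
    (B : MvPolynomial (Fin 3) ℂ) (hB : B.IsHomogeneous 4)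
    (hs : ∀ v : Fin 3 → ℂ, v ≠ 0 → ∃ i, eval v (pderiv i B) ≠ 0) :
    ∃ (u v : Fin 3 → ℂ) (a b c : ℂ), LinearIndependent ℂ ![u, v] ∧
      ∀ s t : ℂ, eval (s • u + t • v) B = (a * s ^ 2 + b * s * t + c * t ^ 2) ^ 2 := by
  obtain ⟨a, ha⟩ := exists_coeffs B hB
  have hBe : ∀ v : Fin 3 → ℂ, eval v B = Q a (v 0) (v 1) (v 2) := by
    intro v
    rw [ha, eval_Q]
  have hB0 : B ≠ 0 := by
    rintro rfl
    obtain ⟨i, hi⟩ := hs (fun _ => 1) (by
      intro h
      exact one_ne_zero (congrFun h 0))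
    simp at hi
  obtain ⟨p, hp⟩ : ∃ p, eval p B ≠ 0 := by
    by_contra hcon
    push Not at hcon
    apply hB0
    apply MvPolynomial.funext
    intro v
    rw [hcon v, map_zero]
  have hp0 : p ≠ 0 := by
    rintro rfl
    apply hp
    rw [hBe]
    simp [Q]
  obtain ⟨L, hL⟩ := SeparatingDual.exists_continuousLinearEquiv_apply_eq (R := ℂ)
    (x := (Pi.single 2 1 : Fin 3 → ℂ)) (y := p) (by simp) hp0
  set κ : ℂ := (eval p B)⁻¹ with hκ
  have hκ0 : κ ≠ 0 := inv_ne_zero hp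
  set B' : MvPolynomial (Fin 3) ℂ :=
    C κ * aeval (fun i => ∑ j, C (L (Pi.single j 1) i) * (X j : MvPolynomial (Fin 3) ℂ)) B with hB'
  have hLe : ∀ (v : Fin 3 → ℂ) i, L v i = ∑ j, L (Pi.single j 1) i * v j := by
    intro v i
    have h1 : v = ∑ j, v j • (Pi.single j 1 : Fin 3 → ℂ) := by
      ext k
      simp [Finset.sum_apply, Pi.single_apply]
    conv_lhs => rw [h1]
    rw [map_sum, Finset.sum_apply]
    apply Finset.sum_congr rfl
    intro j _
    rw [map_smul, Pi.smul_apply, smul_eq_mul, mul_comm]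
  have hB'e : ∀ v : Fin 3 → ℂ, eval v B' = κ * eval (L v) B := by
    intro v
    rw [hB', map_mul, eval_C]
    congr 1
    have h1 : (eval v) ((aeval (fun i => ∑ j, C (L (Pi.single j 1) i) *
        (X j : MvPolynomial (Fin 3) ℂ))) B) = eval (fun i => eval v (∑ j,
        C (L (Pi.single j 1) i) * (X j : MvPolynomial (Fin 3) ℂ))) B := by
      rw [map_aeval]
      have h2 : (eval v).comp (algebraMap ℂ (MvPolynomial (Fin 3) ℂ)) = RingHom.id ℂ := by
        ext c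
        simp
      rw [h2]
      rfl
    rw [h1]
    congr 1
    congr 1
    ext i
    simp only [map_sum, map_mul, eval_C, eval_X]
    exact (hLe v i).symm
  have hB'h : B'.IsHomogeneous 4 := by
    rw [hB']
    apply IsHomogeneous.C_mul
    have h1 := hB.aeval (n := 1) (fun i => ∑ j, C (L (Pi.single j 1) i) *
        (X j : MvPolynomial (Fin 3) ℂ)) (by
      intro i
      apply IsHomogeneous.sum
      intro j _
      exact (isHomogeneous_X ℂ j).C_mul _)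
    simpa using h1
  obtain ⟨a', ha'⟩ := exists_coeffs B' hB'h
  have hB'Q : ∀ v : Fin 3 → ℂ, Q a' (v 0) (v 1) (v 2) = κ * Q a (L v 0) (L v 1) (L v 2) := by
    intro v
    rw [← hBe, ← hB'e, ha', eval_Q]
  have h14 : a' 14 = 1 := by
    have h1 := hB'Q (Pi.single 2 1)
    rw [hL, ← hBe, hκ, inv_mul_cancel₀ hp] at h1
    rw [← h1]
    simp [Q]
  have hlin : ∀ (v w : Fin 3 → ℂ) (t : ℂ) i, L (v + t • w) i = 1 * L v i + t * L w i := by
    intro v w t i
    rw [map_add, map_smul]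
    simp
  have hc1 : ∀ v w : Fin 3 → ℂ, c1 a' (v 0) (v 1) (v 2) (w 0) (w 1) (w 2)
      = κ * c1 a (L v 0) (L v 1) (L v 2) (L w 0) (L w 1) (L w 2) := by
    intro v w
    apply c1_of_eq
    intro t
    have h1 := hB'Q (v + t • w)
    simp only [hlin, Pi.add_apply, Pi.smul_apply, smul_eq_mul] at h1
    simpa only [one_mul] using h1
  have hs' : ∀ x y z : ℂ, ¬ (x = 0 ∧ y = 0 ∧ z = 0) →
      ¬ (gx a' x y z = 0 ∧ gy a' x y z = 0 ∧ gz a' x y z = 0) := by
    intro x y z hne hg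
    have hv : (![x, y, z] : Fin 3 → ℂ) ≠ 0 := by
      intro h
      exact hne ⟨congrFun h 0, congrFun h 1, congrFun h 2⟩
    have hV : L ![x, y, z] ≠ 0 := by
      intro h
      exact hv ((map_eq_zero_iff L L.injective).mp h)
    have h1 : ∀ W : Fin 3 → ℂ, c1 a (L ![x, y, z] 0) (L ![x, y, z] 1) (L ![x, y, z] 2)
        (W 0) (W 1) (W 2) = 0 := by
      intro W
      have h2 := hc1 ![x, y, z] (L.symm W)
      rw [ContinuousLinearEquiv.apply_symm_apply] at h2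
      have h3 : c1 a' x y z (L.symm W 0) (L.symm W 1) (L.symm W 2) = 0 := by
        unfold c1
        rw [hg.1, hg.2.1, hg.2.2]
        ring
      have h4 : κ * c1 a (L ![x, y, z] 0) (L ![x, y, z] 1) (L ![x, y, z] 2)
          (W 0) (W 1) (W 2) = 0 := by
        rw [← h2]
        exact h3
      exact (mul_eq_zero.mp h4).resolve_left hκ0
    obtain ⟨i, hi⟩ := hs _ hV
    apply hi
    rw [ha]
    have e0 := h1 ![1, 0, 0]
    have e1 := h1 ![0, 1, 0]
    have e2 := h1 ![0, 0, 1]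
    simp only [c1, Matrix.cons_val_zero, Matrix.cons_val_one, Matrix.cons_val, mul_one, mul_zero,
      add_zero, zero_add] at e0 e1 e2
    fin_cases i
    · exact (pderiv0 a _).trans e0
    · exact (pderiv1 a _).trans e1
    · exact (pderiv2 a _).trans e2
  obtain ⟨u, v, hli, h0, h1, hd⟩ := explicit hA a' h14 hs'
  obtain ⟨α, β, e2, e3, e4⟩ := sq_of_disc (c2 a' (u 0) (u 1) (u 2) (v 0) (v 1) (v 2))
    (c1 a' (v 0) (v 1) (v 2) (u 0) (u 1) (u 2)) (Q a' (v 0) (v 1) (v 2)) (by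
      unfold dd at hd
      linear_combination hd)
  obtain ⟨k, hk⟩ := IsAlgClosed.exists_pow_nat_eq (κ⁻¹) (n := 2) (by norm_num)
  refine ⟨L u, L v, 0, k * α, k * β, ?_, ?_⟩
  · rw [LinearIndependent.pair_iff] at hli ⊢
    intro s t hst
    apply hli
    apply L.injective
    rw [map_add, map_smul, map_smul, hst, map_zero]
  · intro s t
    have h2 : eval (s • L u + t • L v) B = κ⁻¹ * Q a' (s * u 0 + t * v 0) (s * u 1 + t * v 1)
        (s * u 2 + t * v 2) := by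
      have h3 := hB'Q (s • u + t • v)
      simp only [Pi.add_apply, Pi.smul_apply, smul_eq_mul] at h3
      rw [h3, ← mul_assoc, inv_mul_cancel₀ hκ0, one_mul, map_add, map_smul, map_smul, hBe]
    rw [h2, expand, h0, h1, e2, e3, e4, ← hk]
    ring

/-- LEAF D: every smooth plane quartic has a bitangent -/
theorem exists_bitangent (B : MvPolynomial (Fin 3) ℂ) (hB : B.IsHomogeneous 4)
    (hs : ∀ v : Fin 3 → ℂ, v ≠ 0 → ∃ i, eval v (pderiv i B) ≠ 0) :
    ∃ (u v : Fin 3 → ℂ) (a b c : ℂ), LinearIndependent ℂ ![u, v] ∧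
      ∀ s t : ℂ, eval (s • u + t • v) B = (a * s ^ 2 + b * s * t + c * t ^ 2) ^ 2 :=
  exists_bitangent_of (fun P hP => exists_common_zero (by norm_num) P hP) B hB hs

end Vale.Agent.P287.H46
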