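import Vale.Agent.P287.H674.Tri

/-! LEAF G: change of coordinates. -/

namespace Vale.Agent.P287.H46

open MvPolynomial Vale.Agent.P287.H674

theorem eval_aeval' {σ τ : Type*} (v : τ → ℂ) (f : σ → MvPolynomial τ ℂ) (p : MvPolynomial σ ℂ) :
    eval v (aeval f p) = eval (fun i => eval v (f i)) p := by
  rw [map_aeval]
  have h2 : (eval v).comp (algebraMap ℂ (MvPolynomial τ ℂ)) = RingHom.id ℂ := by
    ext c
    simp
  rw [h2]
  rfl

/-- the linear forms of a linear map -/
noncomputable def linP (g : (Fin 6 → ℂ) ≃ₗ[ℂ] (Fin 6 → ℂ)) (i : Fin 6) : MvPolynomial (Fin 6) ℂ :=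
  ∑ j, C (g (Pi.single j 1) i) * X j

theorem linP_hom (g : (Fin 6 → ℂ) ≃ₗ[ℂ] (Fin 6 → ℂ)) (i : Fin 6) : (linP g i).IsHomogeneous 1 :=
  IsHomogeneous.sum _ _ _ fun j _ => (isHomogeneous_X ℂ j).C_mul _

theorem lin_apply (g : (Fin 6 → ℂ) ≃ₗ[ℂ] (Fin 6 → ℂ)) (v : Fin 6 → ℂ) (i : Fin 6) :
    g v i = ∑ j, g (Pi.single j 1) i * v j := by
  have h1 : v = ∑ j, v j • (Pi.single j 1 : Fin 6 → ℂ) := by
    ext k
    simp [Finset.sum_apply, Pi.single_apply]
  conv_lhs => rw [h1]
  rw [map_sum, Finset.sum_apply]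
  apply Finset.sum_congr rfl
  intro j _
  rw [map_smul, Pi.smul_apply, smul_eq_mul, mul_comm]

theorem eval_linP (g : (Fin 6 → ℂ) ≃ₗ[ℂ] (Fin 6 → ℂ)) (v : Fin 6 → ℂ) (i : Fin 6) :
    eval v (linP g i) = g v i := by
  rw [lin_apply, linP]
  simp

/-- substitution -/
noncomputable def subst (g : (Fin 6 → ℂ) ≃ₗ[ℂ] (Fin 6 → ℂ)) (p : MvPolynomial (Fin 6) ℂ) :
    MvPolynomial (Fin 6) ℂ := aeval (linP g) p

theorem eval_subst (g : (Fin 6 → ℂ) ≃ₗ[ℂ] (Fin 6 → ℂ)) (v : Fin 6 → ℂ)
    (p : MvPolynomial (Fin 6) ℂ) : eval v (subst g p) = eval (g v) p := by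
  rw [subst, eval_aeval']
  congr 1
  simp only [eval_linP]

theorem subst_hom (g : (Fin 6 → ℂ) ≃ₗ[ℂ] (Fin 6 → ℂ)) {p : MvPolynomial (Fin 6) ℂ} {d : ℕ}
    (hp : p.IsHomogeneous d) : (subst g p).IsHomogeneous d := by
  have h := hp.aeval (n := 1) (linP g) (linP_hom g)
  rwa [one_mul] at h

theorem exists_comp (F : MvPolynomial (Fin 6) ℂ) (g : (Fin 6 → ℂ) ≃ₗ[ℂ] (Fin 6 → ℂ)) :
    ∃ G : MvPolynomial (Fin 6) ℂ, ∀ v, eval v G = eval (g v) F :=
  ⟨subst g F, fun v => eval_subst g v F⟩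

theorem polar6 {F : MvPolynomial (Fin 6) ℂ} (hF : F.IsHomogeneous 3) (v w : Fin 6 → ℂ) :
    6 * tri F v v w = eval (v + w) F - eval (v - w) F - 2 * eval w F := by
  rw [← tri_self hF, ← tri_self hF, ← tri_self hF]
  simp only [map_add, map_sub, LinearMap.add_apply, LinearMap.sub_apply]
  have e1 : tri F v w v = tri F v v w := tri_comm2 F v w v
  have e2 : tri F w v v = tri F v v w := by rw [tri_comm1, tri_comm2]
  have e3 : tri F w v w = tri F v w w := tri_comm1 F w v w
  have e4 : tri F w w v = tri F v w w := by rw [tri_comm2, tri_comm1]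
  rw [e1, e2, e3, e4]
  ring

theorem smooth_comp {F G : MvPolynomial (Fin 6) ℂ} (g : (Fin 6 → ℂ) ≃ₗ[ℂ] (Fin 6 → ℂ))
    (hG : ∀ v, eval v G = eval (g v) F) (hF : SmoothCubic F) : SmoothCubic G := by
  have hGs : G = subst g F := by
    apply MvPolynomial.funext
    intro v
    rw [hG, eval_subst]
  have hGh : G.IsHomogeneous 3 := by
    rw [hGs]
    exact subst_hom g hF.1
  refine ⟨hGh, fun v hv => ?_⟩
  by_contra hcon
  push Not at hcon
  have hgv : g v ≠ 0 := by
    intro h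
    exact hv ((map_eq_zero_iff g g.injective).mp h)
  obtain ⟨w, hw⟩ := smooth_tri hF hgv
  apply hw
  have h1 : tri G v v = 0 := by
    apply LinearMap.pi_ext'
    intro i
    ext
    have h2 := hcon i
    rw [eval_pderiv_eq hGh] at h2
    simpa using h2
  have h3 := polar6 hGh v (g.symm w)
  rw [h1] at h3
  have h4 := polar6 hF.1 (g v) w
  have h5 : 6 * tri F (g v) (g v) w = 0 := by
    rw [h4]
    rw [hG, hG, hG, map_add, map_sub, LinearEquiv.apply_symm_apply] at h3
    rw [← h3]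
    simp
  simpa using h5

theorem rational_comp {F G : MvPolynomial (Fin 6) ℂ} (g : (Fin 6 → ℂ) ≃ₗ[ℂ] (Fin 6 → ℂ))
    (hG : ∀ v, eval v G = eval (g v) F) (h : RationalHypersurface G) : RationalHypersurface F := by
  obtain ⟨d, e, φ, ψ, k, q, hφ, hψ, h1, hk, hq, h2, h3⟩ := h
  have hF : ∀ z, eval z F = eval (g.symm z) G := by
    intro z
    rw [hG, LinearEquiv.apply_symm_apply]
  choose m hm using h3
  refine ⟨d, e, fun i => ∑ j, C (g (Pi.single j 1) i) * φ j, fun j => subst g.symm (ψ j), k,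
    subst g.symm q, ?_, ?_, ?_, hk, ?_, ?_, ?_⟩
  · intro i
    exact IsHomogeneous.sum _ _ _ fun j _ => (hφ j).C_mul _
  · intro j
    exact subst_hom g.symm (hψ j)
  · apply MvPolynomial.funext
    intro v
    have h4 : (fun i => eval v (∑ j, C (g (Pi.single j 1) i) * φ j)) =
        g (fun j => eval v (φ j)) := by
      ext i
      rw [lin_apply]
      simp
    rw [eval_aeval', h4, ← hG, ← eval_aeval', h1]
  · rintro ⟨r, hr⟩
    apply hq
    refine ⟨subst g r, ?_⟩
    apply MvPolynomial.funext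
    intro v
    have h4 := congrArg (eval (g v)) hr
    rw [eval_subst, map_mul, LinearEquiv.symm_apply_apply] at h4
    rw [h4, map_mul, eval_subst, hG]
  · intro j
    apply MvPolynomial.funext
    intro v
    have h4 : (fun i => eval v (∑ j, C (g (Pi.single j 1) i) * φ j)) =
        g (fun j => eval v (φ j)) := by
      ext i
      rw [lin_apply]
      simp
    rw [eval_aeval', h4, eval_subst, LinearEquiv.symm_apply_apply, ← eval_aeval', h2]
  · intro i
    refine ⟨∑ j, C (g (Pi.single j 1) i) * subst g.symm (m j), ?_⟩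
    apply MvPolynomial.funext
    intro z
    rw [map_sub, map_mul, map_mul, eval_aeval', eval_subst, hF z]
    simp only [eval_subst, map_sum, map_mul, eval_C, eval_X]
    set y := g.symm z with hy
    have hz : z i = ∑ j, g (Pi.single j 1) i * y j := by
      rw [← lin_apply, hy, LinearEquiv.apply_symm_apply]
    rw [hz, Finset.mul_sum, Finset.mul_sum, ← Finset.sum_sub_distrib]
    apply Finset.sum_congr rfl
    intro j _
    have h5 := congrArg (eval y) (hm j)
    rw [map_sub, map_mul, map_mul, eval_aeval', eval_X] at h5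
    linear_combination (g (Pi.single j 1) i) * h5

end Vale.Agent.P287.H46
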