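import Vale.Agent.P287.H46.Quartic

namespace Vale.Agent.P287.H46

open Polynomial

/-- `ℂ[Y][X][Z]` -/
abbrev P3 := Polynomial (Polynomial (Polynomial ℂ))

noncomputable def cX : P3 := C X
noncomputable def cY : P3 := C (C X)
noncomputable def cZ : P3 := X

noncomputable def cC : ℂ →+* P3 := (C.comp C).comp C

/-- evaluation at a point with coordinates in a commutative ring over `ℂ` -/
noncomputable def evl {A : Type*} [CommRing A] (j : ℂ →+* A) (x y z : A) : P3 →+* A :=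
  eval₂RingHom (eval₂RingHom (eval₂RingHom j y) x) z

section evl

variable {A : Type*} [CommRing A] (j : ℂ →+* A) (x y z : A)

theorem evl_cX : evl j x y z cX = x := by simp [evl, cX]
theorem evl_cY : evl j x y z cY = y := by simp [evl, cY]
theorem evl_cZ : evl j x y z cZ = z := by simp [evl, cZ]
theorem evl_cC (a : ℂ) : evl j x y z (cC a) = j a := by simp [evl, cC]

theorem evl_Q (a : Fin 15 → ℂ) : evl j x y z (Q (cC ∘ a) cX cY cZ) = Q (j ∘ a) x y z := by
  refine (map_Q (R := P3) (evl j x y z) _ _ _ _).trans ?_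
  rw [evl_cX, evl_cY, evl_cZ]
  congr 1
  ext i
  simp [evl_cC]

theorem evl_d1 (a : Fin 15 → ℂ) : evl j x y z (d1 (cC ∘ a) cX cY cZ) = d1 (j ∘ a) x y z := by
  refine (map_d1 (R := P3) (evl j x y z) _ _ _ _).trans ?_
  rw [evl_cX, evl_cY, evl_cZ]
  congr 1
  ext i
  simp [evl_cC]

theorem evl_d2 (a : Fin 15 → ℂ) : evl j x y z (d2 (cC ∘ a) cX cY cZ) = d2 (j ∘ a) x y z := by
  refine (map_d2 (R := P3) (evl j x y z) _ _ _ _).trans ?_
  rw [evl_cX, evl_cY, evl_cZ]
  congr 1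
  ext i
  simp [evl_cC]

end evl

/-- `X ^ n ∣ C u * r` implies `X ^ n ∣ r` -/
theorem X_pow_dvd {S : Type*} [CommRing S] [IsDomain S] {n : ℕ} {u : S} (hu : u ≠ 0) {r s : S[X]}
    (h : C u * r = X ^ n * s) : X ^ n ∣ r := by
  rw [X_pow_dvd_iff]
  intro d hd
  have h1 : (C u * r).coeff d = 0 := by
    rw [h, coeff_X_pow_mul']
    simp [Nat.not_le.mpr hd]
  rw [coeff_C_mul] at h1
  exact (mul_eq_zero.mp h1).resolve_left hu

/-- the division lemma -/
theorem exists_div {b d e : P3} (hb : b.Monic)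
    (h : b ∣ cY ^ 6 * d - cX ^ 6 * e) :
    ∃ D k l : P3, d = cX ^ 6 * D + b * k ∧ e = cY ^ 6 * D + b * l := by
  have h1 : (cY ^ 6 * d) %ₘ b = (cX ^ 6 * e) %ₘ b := by
    rw [← sub_eq_zero, ← sub_modByMonic]
    exact (modByMonic_eq_zero_iff_dvd hb).mpr h
  have h2 : ∀ (c : Polynomial (Polynomial ℂ)) (p : P3), (C c * p) %ₘ b = C c * (p %ₘ b) := by
    intro c p
    rw [← smul_eq_C_mul, ← smul_eq_C_mul, smul_modByMonic]
  have hY : cY ^ 6 = C (C (X ^ 6)) := by simp [cY]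
  have hX : cX ^ 6 = C (X ^ 6) := by simp [cX]
  rw [hY, hX, h2, h2] at h1
  have h3 : (C (X ^ 6 : Polynomial (Polynomial ℂ)) : P3) ∣ d %ₘ b := by
    rw [C_dvd_iff_dvd_coeff]
    intro i
    have h4 := congrArg (fun p => coeff p i) h1
    simp only [coeff_C_mul] at h4
    exact X_pow_dvd (u := (X ^ 6 : Polynomial ℂ)) (pow_ne_zero _ X_ne_zero) h4
  obtain ⟨D, hD⟩ := h3
  have h5 : e %ₘ b = C (C (X ^ 6)) * D := by
    rw [hD] at h1
    have h6 : (C (X ^ 6 : Polynomial (Polynomial ℂ)) : P3) ≠ 0 := by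
      simp
    apply mul_left_cancel₀ h6
    rw [← h1]
    ring
  refine ⟨D, d /ₘ b, e /ₘ b, ?_, ?_⟩
  · rw [hX, ← hD]
    exact (modByMonic_add_div d b).symm
  · rw [hY, ← h5]
    exact (modByMonic_add_div e b).symm

/-- the quartic as a polynomial is monic in the last variable -/
theorem monic_Q (a : Fin 15 → ℂ) (ha : a 14 = 1) : (Q (cC ∘ a) cX cY cZ).Monic := by
  have h0 : Q (cC ∘ a) cX cY cZ = X ^ 4 + (C (C (C (a 9)) * X + C (C (a 13) * X)) * X ^ 3
      + C (C (C (a 5)) * X ^ 2 + C (C (a 8) * X) * X + C (C (a 12) * X ^ 2)) * X ^ 2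
      + C (C (C (a 2)) * X ^ 3 + C (C (a 4) * X) * X ^ 2 + C (C (a 7) * X ^ 2) * X
        + C (C (a 11) * X ^ 3)) * X
      + C (C (C (a 0)) * X ^ 4 + C (C (a 1) * X) * X ^ 3 + C (C (a 3) * X ^ 2) * X ^ 2
        + C (C (a 6) * X ^ 3) * X + C (C (a 10) * X ^ 4))) := by
    simp only [Q, cC, cX, cY, cZ, Function.comp, RingHom.comp_apply, map_add, map_mul, map_pow, ha,
      map_one]
    ring
  rw [h0]
  apply monic_X_pow_add
  compute_degree!

end Vale.Agent.P287.H46
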