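import Vale.Agent.P287.H46.Div

namespace Vale.Agent.P287.H46

open Polynomial

theorem map_evl {A B : Type*} [CommRing A] [CommRing B] (f : A →+* B) (j : ℂ →+* A) (x y z : A)
    (p : P3) : f (evl j x y z p) = evl (f.comp j) (f x) (f y) (f z) p := by
  have h : (f.comp (evl j x y z)) = evl (f.comp j) (f x) (f y) (f z) := by
    apply Polynomial.ringHom_ext'
    · apply Polynomial.ringHom_ext'
      · apply Polynomial.ringHom_ext'
        · ext a
          simp [evl]
        · simp [evl]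
      · simp [evl]
    · simp [evl]
  exact congrArg (fun g => g p) h

/-- evaluation at a complex point -/
noncomputable def ev (x y z : ℂ) : P3 →+* ℂ := evl (RingHom.id ℂ) x y z

theorem ev_cX (x y z : ℂ) : ev x y z cX = x := evl_cX _ _ _ _
theorem ev_cY (x y z : ℂ) : ev x y z cY = y := evl_cY _ _ _ _

theorem ev_Q (a : Fin 15 → ℂ) (x y z : ℂ) : ev x y z (Q (cC ∘ a) cX cY cZ) = Q a x y z := by
  rw [ev, evl_Q]
  rfl

theorem ev_d1 (a : Fin 15 → ℂ) (x y z : ℂ) : ev x y z (d1 (cC ∘ a) cX cY cZ) = d1 a x y z := by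
  rw [ev, evl_d1]
  rfl

theorem ev_d2 (a : Fin 15 → ℂ) (x y z : ℂ) : ev x y z (d2 (cC ∘ a) cX cY cZ) = d2 a x y z := by
  rw [ev, evl_d2]
  rfl

/-- as a polynomial in three variables -/
noncomputable def toMv (p : P3) : MvPolynomial (Fin 3) ℂ :=
  evl MvPolynomial.C (MvPolynomial.X 0) (MvPolynomial.X 1) (MvPolynomial.X 2) p

theorem eval_toMv (v : Fin 3 → ℂ) (p : P3) :
    MvPolynomial.eval v (toMv p) = ev (v 0) (v 1) (v 2) p := by
  unfold toMv ev
  rw [map_evl]
  congr 1
  simp only [MvPolynomial.eval_X]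
  congr 1
  ext a
  simp

/-- restriction to the line through the origin -/
theorem ev_line (x y z l : ℂ) (p : P3) :
    ev (l * x) (l * y) (l * z) p = (evl C (X * C x) (X * C y) (X * C z) p : ℂ[X]).eval l := by
  have h := map_evl (evalRingHom l) C (X * C x) (X * C y) (X * C z) p
  simp only [coe_evalRingHom] at h
  rw [h, ev]
  congr 1
  · simp only [eval_mul, eval_X, eval_C]
    congr 1
    ext a
    simp

/-- the division with the discriminants -/
theorem exists_D (a : Fin 15 → ℂ) (ha : a 14 = 1) :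
    ∃ D : P3, ∀ x y z : ℂ, Q a x y z = 0 →
      d1 a x y z = x ^ 6 * ev x y z D ∧ d2 a x y z = y ^ 6 * ev x y z D := by
  have hm := monic_Q a ha
  have hdvd : Q (cC ∘ a) cX cY cZ ∣
      cY ^ 6 * d1 (cC ∘ a) cX cY cZ - cX ^ 6 * d2 (cC ∘ a) cX cY cZ :=
    dvd_rel (R := P3) _ _ _ _
  obtain ⟨D, k, l, h1, h2⟩ := exists_div hm hdvd
  refine ⟨D, fun x y z h0 => ⟨?_, ?_⟩⟩
  · rw [← ev_d1, h1, map_add, map_mul, map_mul, map_pow, ev_cX, ev_Q, h0]
    ring
  · rw [← ev_d2, h2, map_add, map_mul, map_mul, map_pow, ev_cY, ev_Q, h0]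
    ring

theorem exists_root4 (c0 c1' c2' c3' : ℂ) : ∃ z : ℂ, z ^ 4 + c3' * z ^ 3 + c2' * z ^ 2 + c1' * z + c0 = 0 := by
  set p : ℂ[X] := X ^ 4 + (C c3' * X ^ 3 + C c2' * X ^ 2 + C c1' * X + C c0) with hp
  have hd : p.degree = 4 := by
    rw [hp]
    compute_degree!
  obtain ⟨z, hz⟩ := IsAlgClosed.exists_root p (by rw [hd]; norm_num)
  refine ⟨z, ?_⟩
  have h := hz
  rw [IsRoot.def, hp] at h
  simp only [eval_add, eval_mul, eval_pow, eval_X, eval_C] at h
  linear_combination h

theorem D_zero (a : Fin 15 → ℂ) (ha : a 14 = 1) (D : P3)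
    (hD : ∀ x y z : ℂ, Q a x y z = 0 → d1 a x y z = x ^ 6 * ev x y z D) : ev 0 0 0 D = 0 := by
  obtain ⟨z, hz⟩ := exists_root4 (a 0) (a 2) (a 5) (a 9)
  have h0 : Q a 1 0 z = 0 := by
    unfold Q
    rw [ha]
    linear_combination hz
  have h1 : ∀ l : ℂ, l ≠ 0 → ev (l * 1) (l * 0) (l * z) D = l ^ 14 * d1 a 1 0 z := by
    intro l hl
    have h2 := hD (l * 1) (l * 0) (l * z) (by rw [Q_scale, h0, mul_zero])
    rw [d1_scale] at h2
    have h3 : (l * 1) ^ 6 ≠ 0 := by simpa using hl
    apply mul_left_cancel₀ h3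
    rw [← h2]
    ring
  set p : ℂ[X] := evl C (X * C 1) (X * C 0) (X * C z) D with hp
  have h4 : X * (p - X ^ 14 * C (d1 a 1 0 z)) = 0 := by
    apply Polynomial.funext
    intro l
    by_cases hl : l = 0
    · simp [hl]
    · rw [eval_mul, eval_sub, hp, ← ev_line, h1 l hl]
      simp only [eval_mul, eval_X, eval_pow, eval_C, eval_zero]
      ring
  have h5 : p - X ^ 14 * C (d1 a 1 0 z) = 0 := by
    rcases mul_eq_zero.mp h4 with h | h
    · exact absurd h X_ne_zero
    · exact h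
  have h6 : p.eval 0 = 0 := by
    have h7 := congrArg (fun q => Polynomial.eval 0 q) h5
    simpa using h7
  rw [hp, ← ev_line] at h6
  simpa using h6

/-- the explicit form of the bitangent theorem -/
theorem explicit (hA : ∀ P : Fin 2 → MvPolynomial (Fin 3) ℂ,
      (∀ i, MvPolynomial.eval 0 (P i) = 0) → ∃ v : Fin 3 → ℂ, v ≠ 0 ∧ ∀ i, MvPolynomial.eval v (P i) = 0)
    (a : Fin 15 → ℂ) (ha : a 14 = 1)
    (hs : ∀ x y z : ℂ, ¬ (x = 0 ∧ y = 0 ∧ z = 0) →
      ¬ (gx a x y z = 0 ∧ gy a x y z = 0 ∧ gz a x y z = 0)) :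
    ∃ u v : Fin 3 → ℂ, LinearIndependent ℂ ![u, v] ∧ Q a (u 0) (u 1) (u 2) = 0 ∧
      c1 a (u 0) (u 1) (u 2) (v 0) (v 1) (v 2) = 0 ∧
      dd a (u 0) (u 1) (u 2) (v 0) (v 1) (v 2) = 0 := by
  obtain ⟨D, hD⟩ := exists_D a ha
  have hD0 : ev 0 0 0 D = 0 := D_zero a ha D (fun x y z h => (hD x y z h).1)
  obtain ⟨v, hv, hP⟩ := hA ![toMv (Q (cC ∘ a) cX cY cZ), toMv D] (by
    intro i
    fin_cases i
    · change MvPolynomial.eval 0 (toMv (Q (cC ∘ a) cX cY cZ)) = 0
      rw [eval_toMv, ev_Q]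
      simp [Q]
    · change MvPolynomial.eval 0 (toMv D) = 0
      rw [eval_toMv]
      exact hD0)
  have hQ : Q a (v 0) (v 1) (v 2) = 0 := by
    have h : MvPolynomial.eval v (toMv (Q (cC ∘ a) cX cY cZ)) = 0 := hP 0
    rwa [eval_toMv, ev_Q] at h
  have hDv : ev (v 0) (v 1) (v 2) D = 0 := by
    have h : MvPolynomial.eval v (toMv D) = 0 := hP 1
    rwa [eval_toMv] at h
  obtain ⟨h1, h2⟩ := hD _ _ _ hQ
  rw [hDv, mul_zero] at h1 h2
  have hE := euler a (v 0) (v 1) (v 2)
  rw [hQ, mul_zero] at hE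
  have hns := hs (v 0) (v 1) (v 2) (by
    rintro ⟨e0, e1, e2⟩
    apply hv
    ext i
    fin_cases i
    · exact e0
    · exact e1
    · exact e2)
  by_cases h0 : v 0 = 0
  · have hy : v 1 ≠ 0 := by
      intro h3
      have h4 : v 2 = 0 := by
        rw [h0, h3] at hQ
        unfold Q at hQ
        rw [ha] at hQ
        have h5 : (v 2) ^ 4 = 0 := by linear_combination hQ
        exact pow_eq_zero_iff (by norm_num) |>.mp h5
      apply hv
      ext i
      fin_cases i
      · exact h0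
      · exact h3
      · exact h4
    refine ⟨v, ![-gz a (v 0) (v 1) (v 2), 0, gx a (v 0) (v 1) (v 2)], ?_, hQ, ?_, ?_⟩
    · rw [LinearIndependent.pair_iff]
      intro s t hst
      have e0 := congrFun hst 0
      have e1 := congrFun hst 1
      have e2 := congrFun hst 2
      simp only [Pi.add_apply, Pi.smul_apply, smul_eq_mul, Matrix.cons_val_zero, Matrix.cons_val_one,
        Matrix.cons_val, Pi.zero_apply, mul_zero, add_zero] at e0 e1 e2
      have hs0 : s = 0 := (mul_eq_zero.mp e1).resolve_right hy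
      refine ⟨hs0, ?_⟩
      by_contra ht
      rw [hs0] at e0 e2
      have g1 : gz a (v 0) (v 1) (v 2) = 0 := by
        have : t * gz a (v 0) (v 1) (v 2) = 0 := by linear_combination -e0
        exact (mul_eq_zero.mp this).resolve_left ht
      have g2 : gx a (v 0) (v 1) (v 2) = 0 := by
        have : t * gx a (v 0) (v 1) (v 2) = 0 := by linear_combination e2
        exact (mul_eq_zero.mp this).resolve_left ht
      rw [g1, g2] at hE
      have g3 : gy a (v 0) (v 1) (v 2) = 0 := by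
        have : gy a (v 0) (v 1) (v 2) * v 1 = 0 := by linear_combination hE
        exact (mul_eq_zero.mp this).resolve_right hy
      exact hns ⟨g2, g3, g1⟩
    · simp only [Matrix.cons_val_zero, Matrix.cons_val_one, Matrix.cons_val]
      unfold c1; ring
    · exact h2
  · refine ⟨v, ![0, gz a (v 0) (v 1) (v 2), -gy a (v 0) (v 1) (v 2)], ?_, hQ, ?_, ?_⟩
    · rw [LinearIndependent.pair_iff]
      intro s t hst
      have e0 := congrFun hst 0
      have e1 := congrFun hst 1
      have e2 := congrFun hst 2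
      simp only [Pi.add_apply, Pi.smul_apply, smul_eq_mul, Matrix.cons_val_zero, Matrix.cons_val_one,
        Matrix.cons_val, Pi.zero_apply, mul_zero, add_zero] at e0 e1 e2
      have hs0 : s = 0 := (mul_eq_zero.mp e0).resolve_right h0
      refine ⟨hs0, ?_⟩
      by_contra ht
      rw [hs0] at e1 e2
      have g1 : gz a (v 0) (v 1) (v 2) = 0 := by
        have : t * gz a (v 0) (v 1) (v 2) = 0 := by linear_combination e1
        exact (mul_eq_zero.mp this).resolve_left ht
      have g2 : gy a (v 0) (v 1) (v 2) = 0 := by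
        have : t * gy a (v 0) (v 1) (v 2) = 0 := by linear_combination -e2
        exact (mul_eq_zero.mp this).resolve_left ht
      rw [g1, g2] at hE
      have g3 : gx a (v 0) (v 1) (v 2) = 0 := by
        have : gx a (v 0) (v 1) (v 2) * v 0 = 0 := by linear_combination hE
        exact (mul_eq_zero.mp this).resolve_right h0
      exact hns ⟨g3, g2, g1⟩
    · simp only [Matrix.cons_val_zero, Matrix.cons_val_one, Matrix.cons_val]
      unfold c1; ring
    · exact h1

end Vale.Agent.P287.H46
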