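import Vale.Agent.P287.H46.HDefs
import Vale.Agent.P287.H46.Bitangent

namespace Vale.Agent.P287.H46

open MvPolynomial Vale.Agent.P287.H674 Vale.Agent.P287.Spec

section

variable (G : Fin 3 → Fin 3 → ℂ) (G1 : Fin 3 → ℂ) (g2 : ℂ) (φ : Fin 2 → Fin 3 → ℂ)

theorem vert (hg2 : g2 ≠ 0) (η : Fin 2 → ℂ) (A B C' : ℂ)
    (h : ∀ k : ℂ, BB4 G G1 g2 φ η k = (A + B * k + C' * k ^ 2) ^ 2) :
    hh φ η = 0 ∧ gg0 G η = 0 := by
  have h0 := h 0
  have h1 := h 1
  have h2 := h (-1)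
  have h3 := h 2
  have h4 := h (-2)
  simp only [BB4] at h0 h1 h2 h3 h4
  have f4 : C' ^ 2 = 1 := by
    linear_combination -(1 / 24 : ℂ) * (h3 + h4 - 4 * (h1 + h2) + 6 * h0)
  have f3 : B * C' = 0 := by
    linear_combination -(1 / 24 : ℂ) * (h3 - h4 - 2 * (h1 - h2))
  have hC : C' ≠ 0 := by
    rintro rfl
    norm_num at f4
  have hB : B = 0 := (mul_eq_zero.mp f3).resolve_right hC
  subst hB
  have f1 : g2 * hh φ η = 0 := by
    linear_combination -(1 / 96 : ℂ) * (8 * (h1 - h2) - (h3 - h4))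
  have f2 : A * C' = gg1 G1 η := by
    linear_combination -(1 / 4 : ℂ) * (h1 + h2) + (1 / 24 : ℂ) * (h3 + h4 - 4 * (h1 + h2) + 6 * h0) / 2
      + h0 / 2
  have f5 : A ^ 2 = gg1 G1 η ^ 2 := by
    rw [← f2, mul_pow, f4, mul_one]
  have f0 : g2 * gg0 G η = 0 := by
    linear_combination -(1 / 4 : ℂ) * h0 - (1 / 4 : ℂ) * f5
  exact ⟨(mul_eq_zero.mp f1).resolve_left hg2, (mul_eq_zero.mp f0).resolve_left hg2⟩

theorem vert' (hg2 : g2 ≠ 0) (η : Fin 2 → ℂ) (x m : ℂ) (hm : m ≠ 0) (A B C' : ℂ)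
    (h : ∀ μ : ℂ, BB4 G G1 g2 φ η (x + μ * m) = (A + B * μ + C' * μ ^ 2) ^ 2) :
    hh φ η = 0 ∧ gg0 G η = 0 := by
  apply vert G G1 g2 φ hg2 η (A - B * x / m + C' * x ^ 2 / m ^ 2) (B / m - 2 * C' * x / m ^ 2)
    (C' / m ^ 2)
  intro k
  have h1 := h ((k - x) / m)
  rw [div_mul_cancel₀ _ hm, add_sub_cancel] at h1
  rw [h1]
  congr 1
  field_simp
  ring

noncomputable def sP2 : Fin 3 → MvPolynomial (Fin 3) ℂ := ![X 0 ^ 2, C 2 * (X 0 * X 1), X 1 ^ 2]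

theorem sP2_hom (i : Fin 3) : (sP2 i).IsHomogeneous 2 := by
  fin_cases i
  · exact isHomogeneous_X_pow _ _
  · exact ((isHomogeneous_X ℂ 0).mul (isHomogeneous_X ℂ 1)).C_mul _
  · exact isHomogeneous_X_pow _ _

noncomputable def B4P : MvPolynomial (Fin 3) ℂ :=
  (X 2 ^ 2 + ∑ i, C (G1 i) * sP2 i) ^ 2
    - (C (4 * g2) * (∑ i, ∑ j, C (G i j) * (sP2 i * sP2 j))
      + C (8 * g2) * ((X 0 * (∑ i, C (φ 0 i) * sP2 i) + X 1 * (∑ i, C (φ 1 i) * sP2 i)) * X 2))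

theorem B4P_hom : (B4P G G1 g2 φ).IsHomogeneous 4 := by
  have hl : ∀ c : Fin 3 → ℂ, (∑ i, C (c i) * sP2 i).IsHomogeneous 2 := fun c =>
    IsHomogeneous.sum _ _ _ fun i _ => (sP2_hom i).C_mul _
  have h1 : ((X 2 ^ 2 + ∑ i, C (G1 i) * sP2 i : MvPolynomial (Fin 3) ℂ) ^ 2).IsHomogeneous 4 :=
    ((isHomogeneous_X_pow (R := ℂ) 2 2).add (hl G1)).pow 2
  have h2 : (C (4 * g2) * (∑ i, ∑ j, C (G i j) * (sP2 i * sP2 j)) :
      MvPolynomial (Fin 3) ℂ).IsHomogeneous 4 :=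
    IsHomogeneous.C_mul (IsHomogeneous.sum _ _ _ fun i _ => IsHomogeneous.sum _ _ _ fun j _ =>
      ((sP2_hom i).mul (sP2_hom j)).C_mul _) _
  have h3 : (C (8 * g2) * ((X 0 * (∑ i, C (φ 0 i) * sP2 i) + X 1 * (∑ i, C (φ 1 i) * sP2 i)) * X 2)
      : MvPolynomial (Fin 3) ℂ).IsHomogeneous 4 :=
    IsHomogeneous.C_mul ((((isHomogeneous_X ℂ 0).mul (hl (φ 0))).add
      ((isHomogeneous_X ℂ 1).mul (hl (φ 1)))).mul (isHomogeneous_X ℂ 2)) _
  exact h1.sub (h2.add h3)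

theorem eval_B4P (v : Fin 3 → ℂ) :
    eval v (B4P G G1 g2 φ) = BB4 G G1 g2 φ ![v 0, v 1] (v 2) := by
  simp only [B4P, BB4, gg0, gg1, hh, Spec.sq, sP2, Fin.sum_univ_three, map_add, map_sub, map_mul,
    map_pow, eval_X, eval_C, Matrix.cons_val_zero, Matrix.cons_val_one, Matrix.cons_val]
  ring

theorem exists_scroll_of
    (hg2 : g2 ≠ 0)
    (hH2 : ∀ η : Fin 2 → ℂ, η ≠ 0 → hh φ η = 0 → gg0 G η ≠ 0)
    (hH1 : ∀ B : MvPolynomial (Fin 3) ℂ,
      (∀ v : Fin 3 → ℂ, eval v B = BB4 G G1 g2 φ ![v 0, v 1] (v 2)) →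
      ∀ v : Fin 3 → ℂ, v ≠ 0 → ∃ i, eval v (pderiv i B) ≠ 0) :
    ∃ (κ : Fin 2 → ℂ) (θ : Fin 3 → ℂ), ∀ η : Fin 2 → ℂ,
      let K := κ 0 * η 0 + κ 1 * η 1
      let Θ := θ 0 * η 0 ^ 2 + θ 1 * η 0 * η 1 + θ 2 * η 1 ^ 2
      g2 * Θ ^ 2 + (gg1 G1 η + K ^ 2) * Θ + (gg0 G η + 2 * hh φ η * K) = 0 := by
  obtain ⟨u, w, a, b, c, hli, hB⟩ := exists_bitangent (B4P G G1 g2 φ) (B4P_hom G G1 g2 φ)
    (hH1 _ (eval_B4P G G1 g2 φ))
  have hB' : ∀ s t : ℂ, BB4 G G1 g2 φ ![s * u 0 + t * w 0, s * u 1 + t * w 1] (s * u 2 + t * w 2)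
      = (a * s ^ 2 + b * s * t + c * t ^ 2) ^ 2 := by
    intro s t
    rw [← hB s t, eval_B4P]
    simp
  rw [LinearIndependent.pair_iff] at hli
  by_cases hδ : u 0 * w 1 - u 1 * w 0 = 0
  · exfalso
    -- a vertical vector
    have hvert : ∀ p q : ℂ, p * u 0 + q * w 0 = 0 → p * u 1 + q * w 1 = 0 → (p ≠ 0 ∨ q ≠ 0) →
        p * u 2 + q * w 2 ≠ 0 := by
      intro p q h0 h1 hpq h2
      have h3 := hli p q (by
        ext i
        fin_cases i
        · simpa using h0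
        · simpa using h1
        · simpa using h2)
      rcases hpq with h | h
      · exact h h3.1
      · exact h h3.2
    have main : ∀ p q : ℂ, p * u 0 + q * w 0 = 0 → p * u 1 + q * w 1 = 0 → (p ≠ 0 ∨ q ≠ 0) →
        (u 0 = 0 ∧ u 1 = 0) ∧ (w 0 = 0 ∧ w 1 = 0) := by
      intro p q h0 h1 hpq
      have hm := hvert p q h0 h1 hpq
      constructor
      · by_contra hne
        have hη : (![u 0, u 1] : Fin 2 → ℂ) ≠ 0 := by
          intro h
          exact hne ⟨congrFun h 0, congrFun h 1⟩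
        obtain ⟨e1, e2⟩ := vert' G G1 g2 φ hg2 ![u 0, u 1] (u 2) (p * u 2 + q * w 2) hm
          a (2 * a * p + b * q) (a * p ^ 2 + b * p * q + c * q ^ 2) (by
            intro μ
            have h4 := hB' (1 + μ * p) (μ * q)
            have h5 : (![(1 + μ * p) * u 0 + μ * q * w 0, (1 + μ * p) * u 1 + μ * q * w 1]
                : Fin 2 → ℂ) = ![u 0, u 1] := by
              congr 1
              · linear_combination μ * h0
              · congr 1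
                linear_combination μ * h1
            rw [h5] at h4
            have h6 : (1 + μ * p) * u 2 + μ * q * w 2 = u 2 + μ * (p * u 2 + q * w 2) := by ring
            rw [h6] at h4
            rw [h4]
            ring)
        exact hH2 _ hη e1 e2
      · by_contra hne
        have hη : (![w 0, w 1] : Fin 2 → ℂ) ≠ 0 := by
          intro h
          exact hne ⟨congrFun h 0, congrFun h 1⟩
        obtain ⟨e1, e2⟩ := vert' G G1 g2 φ hg2 ![w 0, w 1] (w 2) (p * u 2 + q * w 2) hm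
          c (2 * c * q + b * p) (a * p ^ 2 + b * p * q + c * q ^ 2) (by
            intro μ
            have h4 := hB' (μ * p) (1 + μ * q)
            have h5 : (![μ * p * u 0 + (1 + μ * q) * w 0, μ * p * u 1 + (1 + μ * q) * w 1]
                : Fin 2 → ℂ) = ![w 0, w 1] := by
              congr 1
              · linear_combination μ * h0
              · congr 1
                linear_combination μ * h1
            rw [h5] at h4
            have h6 : μ * p * u 2 + (1 + μ * q) * w 2 = w 2 + μ * (p * u 2 + q * w 2) := by ring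
            rw [h6] at h4
            rw [h4]
            ring)
        exact hH2 _ hη e1 e2
    -- now find the vertical vector
    have h00 : ∀ j : Fin 3, j = 0 ∨ j = 1 → u j = 0 ∧ w j = 0 := by
      rintro j (rfl | rfl)
      · by_contra hne
        have hpq : w 0 ≠ 0 ∨ -u 0 ≠ 0 := by
          by_contra h
          push Not at h
          exact hne ⟨neg_eq_zero.mp h.2, h.1⟩
        obtain ⟨⟨e1, e2⟩, e3, e4⟩ := main (w 0) (-u 0) (by ring) (by linear_combination -hδ) hpq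
        exact hne ⟨e1, e3⟩
      · by_contra hne
        have hpq : w 1 ≠ 0 ∨ -u 1 ≠ 0 := by
          by_contra h
          push Not at h
          exact hne ⟨neg_eq_zero.mp h.2, h.1⟩
        obtain ⟨⟨e1, e2⟩, e3, e4⟩ := main (w 1) (-u 1) (by linear_combination hδ) (by ring) hpq
        exact hne ⟨e2, e4⟩
    obtain ⟨e1, e2⟩ := h00 0 (Or.inl rfl)
    obtain ⟨e3, e4⟩ := h00 1 (Or.inr rfl)
    have h7 := hli (w 2) (-u 2) (by
      ext i
      fin_cases i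
      · simp [e1, e2]
      · simp [e3, e4]
      · change w 2 * u 2 + -u 2 * w 2 = 0
        ring)
    have h8 : u 2 = 0 := neg_eq_zero.mp h7.2
    have h9 := hli 1 0 (by
      ext i
      fin_cases i
      · simp [e1]
      · simp [e3]
      · simp [h8])
    exact one_ne_zero h9.1
  · set δ := u 0 * w 1 - u 1 * w 0 with hδd
    refine ⟨![(w 1 * u 2 - u 1 * w 2) / δ, (u 0 * w 2 - w 0 * u 2) / δ],
      ![(-(((w 1 * u 2 - u 1 * w 2) / δ) ^ 2 + G1 0)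
          + (a * w 1 ^ 2 - b * w 1 * u 1 + c * u 1 ^ 2) / δ ^ 2) / (2 * g2),
        (-(2 * ((w 1 * u 2 - u 1 * w 2) / δ) * ((u 0 * w 2 - w 0 * u 2) / δ) + 2 * G1 1)
          + (-2 * a * w 0 * w 1 + b * (w 1 * u 0 + w 0 * u 1) - 2 * c * u 0 * u 1) / δ ^ 2)
          / (2 * g2),
        (-(((u 0 * w 2 - w 0 * u 2) / δ) ^ 2 + G1 2)
          + (a * w 0 ^ 2 - b * w 0 * u 0 + c * u 0 ^ 2) / δ ^ 2) / (2 * g2)], ?_⟩
    intro η
    simp only [Matrix.cons_val_zero, Matrix.cons_val_one, Matrix.cons_val]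
    have h1 := hB' ((w 1 * η 0 - w 0 * η 1) / δ) ((u 0 * η 1 - u 1 * η 0) / δ)
    have h2 : (![(w 1 * η 0 - w 0 * η 1) / δ * u 0 + (u 0 * η 1 - u 1 * η 0) / δ * w 0,
        (w 1 * η 0 - w 0 * η 1) / δ * u 1 + (u 0 * η 1 - u 1 * η 0) / δ * w 1] : Fin 2 → ℂ) = η := by
      have e0 : (w 1 * η 0 - w 0 * η 1) / δ * u 0 + (u 0 * η 1 - u 1 * η 0) / δ * w 0 = η 0 := by
        field_simp
        rw [hδd]
        ring
      have e1 : (w 1 * η 0 - w 0 * η 1) / δ * u 1 + (u 0 * η 1 - u 1 * η 0) / δ * w 1 = η 1 := by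
        field_simp
        rw [hδd]
        ring
      rw [e0, e1]
      ext i
      fin_cases i <;> rfl
    rw [h2] at h1
    set K := (w 1 * u 2 - u 1 * w 2) / δ * η 0 + (u 0 * w 2 - w 0 * u 2) / δ * η 1 with hK
    have h3 : (w 1 * η 0 - w 0 * η 1) / δ * u 2 + (u 0 * η 1 - u 1 * η 0) / δ * w 2 = K := by
      rw [hK]
      ring
    rw [h3] at h1
    set ρ := a * ((w 1 * η 0 - w 0 * η 1) / δ) ^ 2
      + b * ((w 1 * η 0 - w 0 * η 1) / δ) * ((u 0 * η 1 - u 1 * η 0) / δ)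
      + c * ((u 0 * η 1 - u 1 * η 0) / δ) ^ 2 with hρ
    have hg1 : gg1 G1 η = G1 0 * η 0 ^ 2 + 2 * G1 1 * η 0 * η 1 + G1 2 * η 1 ^ 2 := by
      simp only [gg1, Spec.sq, Fin.sum_univ_three, Matrix.cons_val_zero, Matrix.cons_val_one,
        Matrix.cons_val]
      ring
    have h4 : (-(((w 1 * u 2 - u 1 * w 2) / δ) ^ 2 + G1 0)
          + (a * w 1 ^ 2 - b * w 1 * u 1 + c * u 1 ^ 2) / δ ^ 2) / (2 * g2) * η 0 ^ 2
        + (-(2 * ((w 1 * u 2 - u 1 * w 2) / δ) * ((u 0 * w 2 - w 0 * u 2) / δ) + 2 * G1 1)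
          + (-2 * a * w 0 * w 1 + b * (w 1 * u 0 + w 0 * u 1) - 2 * c * u 0 * u 1) / δ ^ 2)
          / (2 * g2) * η 0 * η 1
        + (-(((u 0 * w 2 - w 0 * u 2) / δ) ^ 2 + G1 2)
          + (a * w 0 ^ 2 - b * w 0 * u 0 + c * u 0 ^ 2) / δ ^ 2) / (2 * g2) * η 1 ^ 2
        = (-(gg1 G1 η + K ^ 2) + ρ) / (2 * g2) := by
      rw [hg1, hK, hρ]
      ring
    rw [h4]
    simp only [BB4] at h1
    field_simp
    linear_combination -h1
end

end Vale.Agent.P287.H46
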