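import Vale.Agent.P287.H46.HDefs

namespace Vale.Agent.P287.H46

open MvPolynomial Vale.Agent.P287.H674 Vale.Agent.P287.Spec

/-- the statement of leaf E -/
def SecStmt : Prop := ∀ {F : MvPolynomial (Fin 6) ℂ} (_ : SmoothCubic F)
    (a b : Fin 3 → (Fin 6 → ℂ)) (_ : LinearIndependent ℂ (Sum.elim a b))
    (_ : ∀ t : Fin 3 → ℂ, eval (∑ i, t i • b i) F = 0)
    (g : MvPolynomial (Fin 3) ℂ) (σ : Fin 3 → MvPolynomial (Fin 3) ℂ) (d : ℕ)
    (_ : g.IsHomogeneous d) (_ : ∀ i, (σ i).IsHomogeneous (d + 1)) (_ : g ≠ 0)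
    (_ : ∀ t : Fin 3 → ℂ,
      eval (eval t g • ∑ i, t i • a i + ∑ i, eval t (σ i) • b i) F = 0),
    RationalHypersurface F

section

variable (G : Fin 3 → Fin 3 → ℂ) (G1 : Fin 3 → ℂ) (g2 : ℂ) (φ : Fin 2 → Fin 3 → ℂ)

def aa : Fin 3 → (Fin 6 → ℂ) := ![![0, 0, 0, 1, 0, 0], ![0, 0, 0, 0, 1, 0], ![0, 0, 0, 0, 0, 1]]

def bb : Fin 3 → (Fin 6 → ℂ) :=
  ![![1, 0, 0, 0, φ 0 0, φ 1 0], ![0, 1, 0, 0, φ 0 1, φ 1 1], ![0, 0, 1, 0, φ 0 2, φ 1 2]]

theorem aabb_ind : LinearIndependent ℂ (Sum.elim aa (bb φ)) := by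
  rw [Fintype.linearIndependent_iff]
  intro c hc
  have e0 := congrFun hc 0
  have e1 := congrFun hc 1
  have e2 := congrFun hc 2
  have e3 := congrFun hc 3
  have e4 := congrFun hc 4
  have e5 := congrFun hc 5
  simp [Fintype.sum_sum_type, Fin.sum_univ_three, aa, bb] at e0 e1 e2 e3 e4 e5
  rw [e0, e1, e2] at e4 e5
  simp at e4 e5
  rintro (i | i) <;> fin_cases i
  · exact e3
  · exact e4
  · exact e5
  · exact e0
  · exact e1
  · exact e2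

theorem vec_b (t : Fin 3 → ℂ) : ∑ i, t i • bb φ i
    = ![t 0, t 1, t 2, 0, ∑ i, φ 0 i * t i, ∑ i, φ 1 i * t i] := by
  ext k
  fin_cases k <;> simp [Fin.sum_univ_three, bb] <;> ring

theorem vec_ab (g : ℂ) (t s : Fin 3 → ℂ) : g • ∑ i, t i • aa i + ∑ i, s i • bb φ i
    = ![s 0, s 1, s 2, g * t 0, g * t 1 + ∑ i, φ 0 i * s i, g * t 2 + ∑ i, φ 1 i * s i] := by
  rw [vec_b]
  ext k
  fin_cases k <;> simp [Fin.sum_univ_three, aa]

theorem plane {F : MvPolynomial (Fin 6) ℂ} (h : IsFF G G1 g2 φ F) (t : Fin 3 → ℂ) :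
    eval (∑ i, t i • bb φ i) F = 0 := by
  rw [vec_b]
  have h1 := h t 0 ![∑ i, φ 0 i * t i, ∑ i, φ 1 i * t i]
  simp only [Matrix.cons_val_zero, Matrix.cons_val_one] at h1
  rw [h1]
  simp [FF]

noncomputable def h0P (κ : Fin 2 → ℂ) : MvPolynomial (Fin 3) ℂ := C (κ 1) * X 0 - X 2
noncomputable def h1P (κ : Fin 2 → ℂ) : MvPolynomial (Fin 3) ℂ := X 1 - C (κ 0) * X 0

theorem h0P_hom (κ : Fin 2 → ℂ) : (h0P κ).IsHomogeneous 1 :=
  ((isHomogeneous_X ℂ 0).C_mul _).sub (isHomogeneous_X ℂ 2)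

theorem h1P_hom (κ : Fin 2 → ℂ) : (h1P κ).IsHomogeneous 1 :=
  (isHomogeneous_X ℂ 1).sub ((isHomogeneous_X ℂ 0).C_mul _)

noncomputable def gP (κ : Fin 2 → ℂ) (θ : Fin 3 → ℂ) : MvPolynomial (Fin 3) ℂ :=
  C (θ 0) * h0P κ ^ 2 + C (θ 1) * (h0P κ * h1P κ) + C (θ 2) * h1P κ ^ 2

theorem gP_hom (κ : Fin 2 → ℂ) (θ : Fin 3 → ℂ) : (gP κ θ).IsHomogeneous 2 := by
  have e0 := h0P_hom κ
  have e1 := h1P_hom κ
  exact (((by simpa using e0.pow 2 : (h0P κ ^ 2).IsHomogeneous 2).C_mul _).add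
    ((e0.mul e1).C_mul _)).add ((by simpa using e1.pow 2 : (h1P κ ^ 2).IsHomogeneous 2).C_mul _)

noncomputable def sP (κ : Fin 2 → ℂ) : Fin 3 → MvPolynomial (Fin 3) ℂ :=
  ![X 0 * h0P κ ^ 2, X 0 * (C 2 * (h0P κ * h1P κ)), X 0 * h1P κ ^ 2]

theorem sP_hom (κ : Fin 2 → ℂ) (i : Fin 3) : (sP κ i).IsHomogeneous (2 + 1) := by
  have e0 := h0P_hom κ
  have e1 := h1P_hom κ
  have e2 := isHomogeneous_X (R := ℂ) (0 : Fin 3)
  fin_cases i
  · exact (e2.mul (by simpa using e0.pow 2 : (h0P κ ^ 2).IsHomogeneous 2))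
  · exact (e2.mul ((e0.mul e1).C_mul _))
  · exact (e2.mul (by simpa using e1.pow 2 : (h1P κ ^ 2).IsHomogeneous 2))

theorem rational_FF_of (hE : SecStmt) {F : MvPolynomial (Fin 6) ℂ} (hF : SmoothCubic F)
    (h : IsFF G G1 g2 φ F)
    (hH2 : ∀ η : Fin 2 → ℂ, η ≠ 0 → hh φ η = 0 → gg0 G η ≠ 0)
    (hH3 : ∃ (κ : Fin 2 → ℂ) (θ : Fin 3 → ℂ), ∀ η : Fin 2 → ℂ,
      let K := κ 0 * η 0 + κ 1 * η 1
      let Θ := θ 0 * η 0 ^ 2 + θ 1 * η 0 * η 1 + θ 2 * η 1 ^ 2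
      g2 * Θ ^ 2 + (gg1 G1 η + K ^ 2) * Θ + (gg0 G η + 2 * hh φ η * K) = 0) :
    RationalHypersurface F := by
  obtain ⟨κ, θ, hκ⟩ := hH3
  simp only at hκ
  refine hE hF aa (bb φ) (aabb_ind φ) (plane G G1 g2 φ h) (gP κ θ) (sP κ) 2 (gP_hom κ θ)
    (sP_hom κ) ?_ ?_
  · intro hg
    -- `Θ` vanishes identically
    have hΘ : ∀ η : Fin 2 → ℂ, θ 0 * η 0 ^ 2 + θ 1 * η 0 * η 1 + θ 2 * η 1 ^ 2 = 0 := by
      intro η
      have h1 := congrArg (eval ![0, η 1, -η 0]) hg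
      simp [gP, h0P, h1P] at h1
      linear_combination h1
    -- a zero of `hh`
    obtain ⟨η, hη, hη0⟩ : ∃ η : Fin 2 → ℂ, η ≠ 0 ∧ hh φ η = 0 := by
      by_cases hc : φ 1 2 = 0
      · refine ⟨![0, 1], ?_, ?_⟩
        · intro h1
          have := congrFun h1 1
          simp at this
        · simp [hh, Spec.sq, Fin.sum_univ_three, hc]
      · have hd : (Polynomial.C (φ 1 2) * Polynomial.X ^ 3
            + Polynomial.C (φ 0 2 + 2 * φ 1 1) * Polynomial.X ^ 2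
            + Polynomial.C (2 * φ 0 1 + φ 1 0) * Polynomial.X
            + Polynomial.C (φ 0 0) : Polynomial ℂ).degree = 3 := by
          compute_degree!
        obtain ⟨z, hz⟩ := IsAlgClosed.exists_root _ (by rw [hd]; norm_num :
          (Polynomial.C (φ 1 2) * Polynomial.X ^ 3
            + Polynomial.C (φ 0 2 + 2 * φ 1 1) * Polynomial.X ^ 2
            + Polynomial.C (2 * φ 0 1 + φ 1 0) * Polynomial.X
            + Polynomial.C (φ 0 0) : Polynomial ℂ).degree ≠ 0)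
        rw [Polynomial.IsRoot.def] at hz
        simp only [Polynomial.eval_add, Polynomial.eval_mul, Polynomial.eval_pow,
          Polynomial.eval_X, Polynomial.eval_C] at hz
        refine ⟨![1, z], ?_, ?_⟩
        · intro h1
          have := congrFun h1 0
          simp at this
        · simp [hh, Spec.sq, Fin.sum_univ_three]
          linear_combination hz
    apply hH2 η hη hη0
    have h1 := hκ η
    rw [hΘ η, hη0] at h1
    linear_combination h1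
  · intro t
    rw [vec_ab]
    set η : Fin 2 → ℂ := ![κ 1 * t 0 - t 2, t 1 - κ 0 * t 0] with hη
    have h1 := h (fun i => eval t (sP κ i)) (eval t (gP κ θ) * t 0)
      ![eval t (gP κ θ) * t 1 + ∑ i, φ 0 i * eval t (sP κ i),
        eval t (gP κ θ) * t 2 + ∑ i, φ 1 i * eval t (sP κ i)]
    simp only [Matrix.cons_val_zero, Matrix.cons_val_one] at h1
    refine h1.trans ?_
    have h2 := hκ η
    have e0 : eval t (sP κ 0) = t 0 * Spec.sq η 0 := by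
      simp [sP, h0P, hη, Spec.sq]
    have e1 : eval t (sP κ 1) = t 0 * Spec.sq η 1 := by
      simp [sP, h0P, h1P, hη, Spec.sq]
      left
      ring
    have e2 : eval t (sP κ 2) = t 0 * Spec.sq η 2 := by
      simp [sP, h1P, hη, Spec.sq]
    have eg : eval t (gP κ θ) = θ 0 * η 0 ^ 2 + θ 1 * η 0 * η 1 + θ 2 * η 1 ^ 2 := by
      simp [gP, h0P, h1P, hη]
      ring
    set Θ := eval t (gP κ θ) with hΘ
    rw [← eg] at h2
    have hη0 : η 0 = κ 1 * t 0 - t 2 := rfl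
    have hη1 : η 1 = t 1 - κ 0 * t 0 := rfl
    have ht : η 0 * t 1 + η 1 * t 2 = (κ 0 * η 0 + κ 1 * η 1) * t 0 := by
      rw [hη0, hη1]
      ring
    have s0 : Spec.sq η 0 = η 0 ^ 2 := rfl
    have s1 : Spec.sq η 1 = 2 * η 0 * η 1 := rfl
    have s2 : Spec.sq η 2 = η 1 ^ 2 := rfl
    simp only [FF, Fin.sum_univ_three, Matrix.cons_val_zero, Matrix.cons_val_one, e0, e1, e2,
      s0, s1, s2]
    simp only [gg0, gg1, hh, Fin.sum_univ_three, s0, s1, s2] at h2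
    linear_combination (t 0 ^ 3 * Θ) * h2 + (t 0 * (Θ ^ 2 * (η 0 * t 1 + η 1 * t 2
      + (κ 0 * η 0 + κ 1 * η 1) * t 0) + 2 * Θ * t 0 * (η 0 * (φ 0 0 * η 0 ^ 2
      + φ 0 1 * (2 * η 0 * η 1) + φ 0 2 * η 1 ^ 2) + η 1 * (φ 1 0 * η 0 ^ 2
      + φ 1 1 * (2 * η 0 * η 1) + φ 1 2 * η 1 ^ 2)))) * ht

end

end Vale.Agent.P287.H46
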