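import Vale.Agent.P287.H46.H3
import Vale.Agent.P287.H46.H4
import Vale.Agent.P287.H583.LeafE
import Vale.Agent.P287.H673.HA
import Vale.Agent.P287.H673.HB

namespace Vale.Agent.P287.H46

open MvPolynomial Vale.Agent.P287.H674 Vale.Agent.P287.Spec

variable (G : Fin 3 → Fin 3 → ℂ) (G1 : Fin 3 → ℂ) (g2 : ℂ) (φ : Fin 2 → Fin 3 → ℂ)

/-- LEAF H3 -/
theorem exists_scroll {F : MvPolynomial (Fin 6) ℂ} (hF : SmoothCubic F) (h : IsFF G G1 g2 φ F)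
    (hG : ∀ i j, G i j = G j i) (hg2 : g2 ≠ 0) :
    ∃ (κ : Fin 2 → ℂ) (θ : Fin 3 → ℂ), ∀ η : Fin 2 → ℂ,
      let K := κ 0 * η 0 + κ 1 * η 1
      let Θ := θ 0 * η 0 ^ 2 + θ 1 * η 0 * η 1 + θ 2 * η 1 ^ 2
      g2 * Θ ^ 2 + (gg1 G1 η + K ^ 2) * Θ + (gg0 G η + 2 * hh φ η * K) = 0 :=
  exists_scroll_of G G1 g2 φ hg2
    (fun η hη h0 => H673.no_common hF h hG η hη h0)
    (fun B hB v hv => H673.smooth_quartic hF h hG hg2 B hB v hv)

/-- LEAF H4 -/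
theorem rational_FF {F : MvPolynomial (Fin 6) ℂ} (hF : SmoothCubic F) (h : IsFF G G1 g2 φ F)
    (hG : ∀ i j, G i j = G j i) (hg2 : g2 ≠ 0) : RationalHypersurface F :=
  rational_FF_of G G1 g2 φ
    (fun {F} hF a b hab hP g σ d hg hσ hg0 hsec =>
      H583.rational_of_section hF a b hab hP g σ d hg hσ hg0 hsec) hF h
    (fun η hη h0 => H673.no_common hF h hG η hη h0)
    (exists_scroll G G1 g2 φ hF h hG hg2)

end Vale.Agent.P287.H46
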