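import Vale.Agent.P287.H674.Ratl

/-! The definitions of section H of the spec #14493, verbatim. -/

namespace Vale.Agent.P287.Spec

open MvPolynomial Vale.Agent.P287.H674

section H

variable (G : Fin 3 → Fin 3 → ℂ) (G1 : Fin 3 → ℂ) (g2 : ℂ) (φ : Fin 2 → Fin 3 → ℂ)

/-- the cubic form in the variables `z = (x0, x1, x2)`, `x3`, `y = (x4, x5)`:
`x3 (G(z,z) + x3 G1(z) + g2 x3^2) + q_z(y) - q_z(φ(z))`, `q_z(y) = z0 y1^2 + z1 y1 y2 + z2 y2^2` -/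
def FF (z : Fin 3 → ℂ) (w : ℂ) (y : Fin 2 → ℂ) : ℂ :=
  w * ((∑ i, ∑ j, G i j * z i * z j) + w * (∑ i, G1 i * z i) + g2 * w ^ 2)
    + (z 0 * y 0 ^ 2 + z 1 * y 0 * y 1 + z 2 * y 1 ^ 2)
    - (z 0 * (∑ i, φ 0 i * z i) ^ 2 + z 1 * (∑ i, φ 0 i * z i) * (∑ i, φ 1 i * z i)
        + z 2 * (∑ i, φ 1 i * z i) ^ 2)

/-- `η^2` as a point of the cone -/
def sq (η : Fin 2 → ℂ) : Fin 3 → ℂ := ![η 0 ^ 2, 2 * η 0 * η 1, η 1 ^ 2]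

def gg0 (η : Fin 2 → ℂ) : ℂ := ∑ i, ∑ j, G i j * sq η i * sq η j
def gg1 (η : Fin 2 → ℂ) : ℂ := ∑ i, G1 i * sq η i
def hh (η : Fin 2 → ℂ) : ℂ := η 0 * (∑ i, φ 0 i * sq η i) + η 1 * (∑ i, φ 1 i * sq η i)

/-- the quartic -/
def BB4 (η : Fin 2 → ℂ) (k : ℂ) : ℂ :=
  (k ^ 2 + gg1 G1 η) ^ 2 - 4 * g2 * (gg0 G η + 2 * hh φ η * k)

/-- smoothness of `FF`, in terms of a polynomial -/
def IsFF (F : MvPolynomial (Fin 6) ℂ) : Prop :=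
  ∀ (z : Fin 3 → ℂ) (w : ℂ) (y : Fin 2 → ℂ),
    eval ![z 0, z 1, z 2, w, y 0, y 1] F = FF G G1 g2 φ z w y

end H

end Vale.Agent.P287.Spec
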