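import Mathlib

namespace Vale.Agent.P287.H46

open MvPolynomial

section ring

variable {R : Type*} [CommRing R] (a : Fin 15 → R)

/-- quartic form in three variables with explicit coefficients -/
def Q (x y z : R) : R :=
  a 0 * x ^ 4 + a 1 * x ^ 3 * y + a 2 * x ^ 3 * z + a 3 * x ^ 2 * y ^ 2 + a 4 * x ^ 2 * y * z
    + a 5 * x ^ 2 * z ^ 2 + a 6 * x * y ^ 3 + a 7 * x * y ^ 2 * z + a 8 * x * y * z ^ 2
    + a 9 * x * z ^ 3 + a 10 * y ^ 4 + a 11 * y ^ 3 * z + a 12 * y ^ 2 * z ^ 2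
    + a 13 * y * z ^ 3 + a 14 * z ^ 4

def gx (x y z : R) : R :=
  4 * a 0 * x ^ 3 + 3 * a 1 * x ^ 2 * y + 3 * a 2 * x ^ 2 * z + 2 * a 3 * x * y ^ 2
    + 2 * a 4 * x * y * z + 2 * a 5 * x * z ^ 2 + a 6 * y ^ 3 + a 7 * y ^ 2 * z
    + a 8 * y * z ^ 2 + a 9 * z ^ 3

def gy (x y z : R) : R :=
  a 1 * x ^ 3 + 2 * a 3 * x ^ 2 * y + a 4 * x ^ 2 * z + 3 * a 6 * x * y ^ 2
    + 2 * a 7 * x * y * z + a 8 * x * z ^ 2 + 4 * a 10 * y ^ 3 + 3 * a 11 * y ^ 2 * z
    + 2 * a 12 * y * z ^ 2 + a 13 * z ^ 3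

def gz (x y z : R) : R :=
  a 2 * x ^ 3 + a 4 * x ^ 2 * y + 2 * a 5 * x ^ 2 * z + a 7 * x * y ^ 2
    + 2 * a 8 * x * y * z + 3 * a 9 * x * z ^ 2 + a 11 * y ^ 3 + 2 * a 12 * y ^ 2 * z
    + 3 * a 13 * y * z ^ 2 + 4 * a 14 * z ^ 3

/-- first polar -/
def c1 (x y z u v w : R) : R := gx a x y z * u + gy a x y z * v + gz a x y z * w

/-- second polar -/
def c2 (x y z u v w : R) : R :=
  (6 * a 0 * x ^ 2 + 3 * a 1 * x * y + 3 * a 2 * x * z + a 3 * y ^ 2 + a 4 * y * z
      + a 5 * z ^ 2) * u ^ 2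
    + (a 3 * x ^ 2 + 3 * a 6 * x * y + a 7 * x * z + 6 * a 10 * y ^ 2 + 3 * a 11 * y * z
      + a 12 * z ^ 2) * v ^ 2
    + (a 5 * x ^ 2 + a 8 * x * y + 3 * a 9 * x * z + a 12 * y ^ 2 + 3 * a 13 * y * z
      + 6 * a 14 * z ^ 2) * w ^ 2
    + (3 * a 1 * x ^ 2 + 4 * a 3 * x * y + 2 * a 4 * x * z + 3 * a 6 * y ^ 2
      + 2 * a 7 * y * z + a 8 * z ^ 2) * (u * v)
    + (3 * a 2 * x ^ 2 + 2 * a 4 * x * y + 4 * a 5 * x * z + a 7 * y ^ 2
      + 2 * a 8 * y * z + 3 * a 9 * z ^ 2) * (u * w)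
    + (a 4 * x ^ 2 + 2 * a 7 * x * y + 2 * a 8 * x * z + 3 * a 11 * y ^ 2
      + 4 * a 12 * y * z + 3 * a 13 * z ^ 2) * (v * w)

theorem expand (x y z u v w l m : R) :
    Q a (l * x + m * u) (l * y + m * v) (l * z + m * w)
      = Q a x y z * l ^ 4 + c1 a x y z u v w * l ^ 3 * m + c2 a x y z u v w * l ^ 2 * m ^ 2
        + c1 a u v w x y z * l * m ^ 3 + Q a u v w * m ^ 4 := by
  unfold Q c1 c2 gx gy gz
  ring

theorem euler (x y z : R) : gx a x y z * x + gy a x y z * y + gz a x y z * z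
    = 4 * Q a x y z := by
  unfold Q gx gy gz
  ring

theorem c1_lin (x y z u v w q m : R) :
    c1 a x y z (q * u + m * x) (q * v + m * y) (q * w + m * z)
      = q * c1 a x y z u v w + 4 * m * Q a x y z := by
  unfold c1
  linear_combination m * euler a x y z

theorem c2_lin (x y z u v w q m : R) :
    c2 a x y z (q * u + m * x) (q * v + m * y) (q * w + m * z)
      = q ^ 2 * c2 a x y z u v w + 3 * q * m * c1 a x y z u v w + 6 * m ^ 2 * Q a x y z := by
  unfold Q c1 c2 gx gy gz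
  ring

theorem c3_lin (x y z u v w q m : R) :
    c1 a (q * u + m * x) (q * v + m * y) (q * w + m * z) x y z
      = q ^ 3 * c1 a u v w x y z + 2 * q ^ 2 * m * c2 a x y z u v w
        + 3 * q * m ^ 2 * c1 a x y z u v w + 4 * m ^ 3 * Q a x y z := by
  unfold Q c1 c2 gx gy gz
  ring

theorem Q_lin (x y z u v w q m : R) :
    Q a (q * u + m * x) (q * v + m * y) (q * w + m * z)
      = q ^ 4 * Q a u v w + q ^ 3 * m * c1 a u v w x y z + q ^ 2 * m ^ 2 * c2 a x y z u v w
        + q * m ^ 3 * c1 a x y z u v w + m ^ 4 * Q a x y z := by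
  unfold Q c1 c2 gx gy gz
  ring

/-- the discriminant -/
def dd (x y z u v w : R) : R :=
  c1 a u v w x y z ^ 2 - 4 * c2 a x y z u v w * Q a u v w

theorem dd_lin (x y z u v w q m : R) (h0 : Q a x y z = 0) (h1 : c1 a x y z u v w = 0) :
    dd a x y z (q * u + m * x) (q * v + m * y) (q * w + m * z)
      = q ^ 6 * dd a x y z u v w := by
  unfold dd
  rw [c2_lin, c3_lin, Q_lin, h0, h1]
  ring

theorem dd_scale (x y z u v w p : R) :
    dd a x y z (p * u) (p * v) (p * w) = p ^ 6 * dd a x y z u v w := by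
  have e3 : c1 a (p * u) (p * v) (p * w) x y z = p ^ 3 * c1 a u v w x y z := by
    unfold c1 gx gy gz; ring
  have e2 : c2 a x y z (p * u) (p * v) (p * w) = p ^ 2 * c2 a x y z u v w := by
    unfold c2; ring
  have e4 : Q a (p * u) (p * v) (p * w) = p ^ 4 * Q a u v w := by
    unfold Q; ring
  unfold dd
  rw [e2, e3, e4]
  ring

/-- the discriminants of the two tangent directions -/
def d1 (x y z : R) : R := dd a x y z 0 (gz a x y z) (-gy a x y z)
def d2 (x y z : R) : R := dd a x y z (-gz a x y z) 0 (gx a x y z)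

theorem d_rel (x y z : R) (h0 : Q a x y z = 0) :
    y ^ 6 * d1 a x y z = x ^ 6 * d2 a x y z := by
  unfold d1 d2
  rw [← dd_scale]
  have h1 : c1 a x y z (-gz a x y z) 0 (gx a x y z) = 0 := by
    unfold c1; ring
  rw [← dd_lin a x y z (-gz a x y z) 0 (gx a x y z) x (gz a x y z) h0 h1]
  have hE := euler a x y z
  rw [h0] at hE
  congr 1
  · ring
  · ring
  · linear_combination (-1 : R) * hE

theorem g_scale (x y z l : R) :
    gx a (l * x) (l * y) (l * z) = l ^ 3 * gx a x y z ∧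
    gy a (l * x) (l * y) (l * z) = l ^ 3 * gy a x y z ∧
    gz a (l * x) (l * y) (l * z) = l ^ 3 * gz a x y z := by
  unfold gx gy gz
  refine ⟨by ring, by ring, by ring⟩

theorem Q_scale (x y z l : R) : Q a (l * x) (l * y) (l * z) = l ^ 4 * Q a x y z := by
  unfold Q; ring

theorem dd_scale' (x y z u v w l : R) :
    dd a (l * x) (l * y) (l * z) u v w = l ^ 2 * dd a x y z u v w := by
  have e3 : c1 a u v w (l * x) (l * y) (l * z) = l * c1 a u v w x y z := by
    unfold c1; ring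
  have e2 : c2 a (l * x) (l * y) (l * z) u v w = l ^ 2 * c2 a x y z u v w := by
    unfold c2; ring
  unfold dd
  rw [e2, e3]
  ring

theorem d1_scale (x y z l : R) : d1 a (l * x) (l * y) (l * z) = l ^ 20 * d1 a x y z := by
  unfold d1
  obtain ⟨-, h2, h3⟩ := g_scale a x y z l
  rw [h2, h3]
  have e1 : (0 : R) = l ^ 3 * 0 := by ring
  have e2 : -(l ^ 3 * gy a x y z) = l ^ 3 * (-gy a x y z) := by ring
  rw [e2]
  conv_lhs => rw [e1]
  rw [dd_scale, dd_scale']
  ring

end ring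

section map

variable {R S : Type*} [CommRing R] [CommRing S] (f : R →+* S) (a : Fin 15 → R)

theorem map_Q (x y z : R) : f (Q a x y z) = Q (f ∘ a) (f x) (f y) (f z) := by
  simp only [Q, map_add, map_mul, map_pow, Function.comp]

theorem map_gx (x y z : R) : f (gx a x y z) = gx (f ∘ a) (f x) (f y) (f z) := by
  simp only [gx, map_add, map_mul, map_pow, map_ofNat, Function.comp]

theorem map_gy (x y z : R) : f (gy a x y z) = gy (f ∘ a) (f x) (f y) (f z) := by
  simp only [gy, map_add, map_mul, map_pow, map_ofNat, Function.comp]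

theorem map_gz (x y z : R) : f (gz a x y z) = gz (f ∘ a) (f x) (f y) (f z) := by
  simp only [gz, map_add, map_mul, map_pow, map_ofNat, Function.comp]

theorem map_c1 (x y z u v w : R) :
    f (c1 a x y z u v w) = c1 (f ∘ a) (f x) (f y) (f z) (f u) (f v) (f w) := by
  simp only [c1, map_gx, map_gy, map_gz, map_add, map_mul]

theorem map_c2 (x y z u v w : R) :
    f (c2 a x y z u v w) = c2 (f ∘ a) (f x) (f y) (f z) (f u) (f v) (f w) := by
  simp only [c2, map_add, map_mul, map_pow, map_ofNat, Function.comp]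

theorem map_dd (x y z u v w : R) :
    f (dd a x y z u v w) = dd (f ∘ a) (f x) (f y) (f z) (f u) (f v) (f w) := by
  simp only [dd, map_c1, map_c2, map_Q, map_sub, map_mul, map_pow, map_ofNat]

theorem map_d1 (x y z : R) : f (d1 a x y z) = d1 (f ∘ a) (f x) (f y) (f z) := by
  simp only [d1, map_dd, map_gy, map_gz, map_zero, map_neg]

theorem map_d2 (x y z : R) : f (d2 a x y z) = d2 (f ∘ a) (f x) (f y) (f z) := by
  simp only [d2, map_dd, map_gx, map_gz, map_zero, map_neg]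

theorem dvd_rel (x y z : R) : Q a x y z ∣ y ^ 6 * d1 a x y z - x ^ 6 * d2 a x y z := by
  rw [← Ideal.mem_span_singleton, ← Ideal.Quotient.eq_zero_iff_mem, map_sub, map_mul, map_mul,
    map_pow, map_pow, map_d1, map_d2, sub_eq_zero]
  apply d_rel
  rw [← map_Q]
  exact Ideal.Quotient.eq_zero_iff_mem.mpr (Ideal.mem_span_singleton_self _)

end map

end Vale.Agent.P287.H46
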